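import Vale.Agent.Lib.P045.Main

/-!
# P045: Ryser's conjecture is false (plain formulation)

No definitions: `V` is the finite vertex set, `P i` (`i : Fin r`) are the parts, `E` is the set of
edges, `C` runs over the vertex covers, `M` over the matchings.
-/

namespace Vale.Agent.Results.P045.PlainRyser

/-- Ryser's conjecture fails, in general and for intersecting hypergraphs. -/
theorem result :
    -- the general inequality `τ ≤ (r - 1) ν` is false
    (¬ ∀ r : ℕ, 2 ≤ r → ∀ (V : Type) [Fintype V] [DecidableEq V] (P : Fin r → Finset V)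
        (E : Finset (Finset V)), (∀ v : V, ∃! i : Fin r, v ∈ P i) →
        (∀ e ∈ E, ∀ i : Fin r, (e ∩ P i).card = 1) →
        ∀ τ ν : ℕ,
          IsLeast {k : ℕ | ∃ C : Finset V, (∀ e ∈ E, (C ∩ e).Nonempty) ∧ C.card = k} τ →
          IsGreatest {k : ℕ | ∃ M : Finset (Finset V), M ⊆ E ∧
            (∀ e ∈ M, ∀ f ∈ M, e ≠ f → e ∩ f = ∅) ∧ M.card = k} ν →
          τ ≤ (r - 1) * ν) ∧
    -- the intersecting case is false: an intersecting hypergraph need not have a cover of size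
    -- at most `r - 1`
    (¬ ∀ r : ℕ, 2 ≤ r → ∀ (V : Type) [Fintype V] [DecidableEq V] (P : Fin r → Finset V)
        (E : Finset (Finset V)), (∀ v : V, ∃! i : Fin r, v ∈ P i) →
        (∀ e ∈ E, ∀ i : Fin r, (e ∩ P i).card = 1) → E.Nonempty →
        (∀ e ∈ E, ∀ f ∈ E, (e ∩ f).Nonempty) →
        ∃ C : Finset V, C.card ≤ r - 1 ∧ ∀ e ∈ E, (C ∩ e).Nonempty) ∧
    -- there are counterexamples with arbitrarily large `r`, with `ν = 1` and `τ = r`
    (∀ N : ℕ, ∃ r : ℕ, N ≤ r ∧ 2 ≤ r ∧ ∃ (V : Type) (_ : Fintype V) (_ : DecidableEq V)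
        (P : Fin r → Finset V) (E : Finset (Finset V)), (∀ v : V, ∃! i : Fin r, v ∈ P i) ∧
        (∀ e ∈ E, ∀ i : Fin r, (e ∩ P i).card = 1) ∧ E.Nonempty ∧
        (∀ e ∈ E, ∀ f ∈ E, (e ∩ f).Nonempty) ∧
        IsGreatest {k : ℕ | ∃ M : Finset (Finset V), M ⊆ E ∧
          (∀ e ∈ M, ∀ f ∈ M, e ≠ f → e ∩ f = ∅) ∧ M.card = k} 1 ∧
        IsLeast {k : ℕ | ∃ C : Finset V, (∀ e ∈ E, (C ∩ e).Nonempty) ∧ C.card = k} r) := by
  have main : ∀ N : ℕ, ∃ r : ℕ, N ≤ r ∧ 2 ≤ r ∧ ∃ (V : Type) (_ : Fintype V) (_ : DecidableEq V)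
        (P : Fin r → Finset V) (E : Finset (Finset V)), (∀ v : V, ∃! i : Fin r, v ∈ P i) ∧
        (∀ e ∈ E, ∀ i : Fin r, (e ∩ P i).card = 1) ∧ E.Nonempty ∧
        (∀ e ∈ E, ∀ f ∈ E, (e ∩ f).Nonempty) ∧
        IsGreatest {k : ℕ | ∃ M : Finset (Finset V), M ⊆ E ∧
          (∀ e ∈ M, ∀ f ∈ M, e ≠ f → e ∩ f = ∅) ∧ M.card = k} 1 ∧
        IsLeast {k : ℕ | ∃ C : Finset V, (∀ e ∈ E, (C ∩ e).Nonempty) ∧ C.card = k} r := by
    intro N
    classical
    have hN : N ≤ 2 ^ (max N 9) + 17 :=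
      (le_max_left N 9).trans ((Nat.lt_two_pow_self).le.trans (Nat.le_add_right _ _))
    have hr2 : 2 ≤ 2 ^ (max N 9) + 17 := (by norm_num : 2 ≤ 17).trans (Nat.le_add_left _ _)
    obtain ⟨V, hV, part, E, h1, h2, h3, h4⟩ := Vale.Agent.P045.raw (max N 9) (le_max_right _ _)
    generalize 2 ^ (max N 9) + 17 = r at part hN hr2 h1 h4
    set P : Fin r → Finset V := fun i => Finset.univ.filter (fun v => part v = i) with hP
    have hmem : ∀ v i, v ∈ P i ↔ part v = i := fun v i => by simp [hP]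
    have hone : ∀ e ∈ E, ∀ i : Fin r, (e ∩ P i).card = 1 := by
      intro e he i
      rw [Finset.card_eq_one]
      obtain ⟨x, ⟨hx1, hx2⟩, hx⟩ := h1 e he i
      refine ⟨x, ?_⟩
      ext v
      rw [Finset.mem_inter, hmem, Finset.mem_singleton]
      constructor
      · exact fun h => hx v h
      · rintro rfl
        exact ⟨hx1, hx2⟩
    have hcard : ∀ e ∈ E, e.card = r := by
      intro e he
      have h5 : e.card = (Finset.univ : Finset (Fin r)).card := by
        apply Finset.card_bij (fun v _ => part v)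
        · intro v _
          exact Finset.mem_univ _
        · intro v hv v' hv' h
          obtain ⟨x, _, hx⟩ := h1 e he (part v)
          rw [hx v ⟨hv, rfl⟩, hx v' ⟨hv', h.symm⟩]
        · intro i _
          obtain ⟨x, ⟨hx1, hx2⟩, _⟩ := h1 e he i
          exact ⟨x, hx1, hx2⟩
      rw [h5, Finset.card_univ, Fintype.card_fin]
    have hint : ∀ e ∈ E, ∀ f ∈ E, (e ∩ f).Nonempty := by
      intro e he f hf
      obtain ⟨v, hv1, hv2⟩ := h3 e he f hf
      exact ⟨v, Finset.mem_inter.2 ⟨hv1, hv2⟩⟩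
    refine ⟨r, hN, hr2, V, hV, inferInstance, P, E, ?_, hone, h2, hint, ⟨?_, ?_⟩, ⟨?_, ?_⟩⟩
    · intro v
      refine ⟨part v, (hmem v _).2 rfl, ?_⟩
      intro i hi
      exact ((hmem v i).1 hi).symm
    · obtain ⟨e, he⟩ := h2
      refine ⟨{e}, Finset.singleton_subset_iff.2 he, ?_, Finset.card_singleton e⟩
      intro a ha b hb hab
      rw [Finset.mem_singleton] at ha hb
      exact absurd (ha.trans hb.symm) hab
    · rintro k ⟨M, hM, hdis, rfl⟩
      rw [Finset.card_le_one]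
      intro a ha b hb
      by_contra hne
      have h6 := hint a (hM ha) b (hM hb)
      rw [hdis a ha b hb hne] at h6
      exact Finset.not_nonempty_empty h6
    · obtain ⟨e, he⟩ := h2
      exact ⟨e, fun f hf => hint e he f hf, hcard e he⟩
    · rintro k ⟨C, hC, rfl⟩
      refine h4 C fun e he => ?_
      obtain ⟨v, hv⟩ := hC e he
      rw [Finset.mem_inter] at hv
      exact ⟨v, hv.1, hv.2⟩
  refine ⟨?_, ?_, main⟩
  · intro hall
    obtain ⟨r, -, h2, V, iF, iD, P, E, hP, hE, -, -, hν, hτ⟩ := main 2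
    have h7 := @hall r h2 V iF iD P E hP hE r 1 hτ hν
    omega
  · intro hall
    obtain ⟨r, -, h2, V, iF, iD, P, E, hP, hE, hne, hint, -, hτ⟩ := main 2
    obtain ⟨C, hC1, hC2⟩ := @hall r h2 V iF iD P E hP hE hne hint
    have h8 := hτ.2 ⟨C, hC2, rfl⟩
    omega

end Vale.Agent.Results.P045.PlainRyser
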