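import Vale.Agent.Lib.P045.Main

/-!
# P045: Ryser's conjecture is false, already for intersecting hypergraphs

For every `h ≥ 9` there is an intersecting `r`-partite `r`-uniform hypergraph with
`r = 2 ^ h + 17` whose covering number is `r`.
-/

namespace Vale.Agent.Results.P045.RyserDisproof

/-- An `r`-partite `r`-uniform hypergraph with vertex set `V`: the function `part` gives the
partition of the vertices into the parts `0, ..., r-1`, and every edge contains exactly one
vertex of each part. -/
structure PartiteHypergraph (r : ℕ) (V : Type) where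
  /-- the part of a vertex -/
  part : V → Fin r
  /-- the set of edges -/
  edges : Finset (Finset V)
  /-- every edge has exactly one vertex in each part -/
  transversal : ∀ e ∈ edges, ∀ i : Fin r, ∃! v, v ∈ e ∧ part v = i

namespace PartiteHypergraph

variable {r : ℕ} {V : Type}

/-- `C` is a vertex cover: it meets every edge. -/
def IsCover (H : PartiteHypergraph r V) (C : Finset V) : Prop :=
  ∀ e ∈ H.edges, ∃ v ∈ C, v ∈ e

/-- `M` is a matching: a set of pairwise disjoint edges. -/
def IsMatching (H : PartiteHypergraph r V) (M : Finset (Finset V)) : Prop :=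
  M ⊆ H.edges ∧ ∀ e ∈ M, ∀ f ∈ M, e ≠ f → Disjoint e f

/-- The covering number: the minimum size of a vertex cover. -/
noncomputable def tau (H : PartiteHypergraph r V) : ℕ :=
  sInf {n : ℕ | ∃ C : Finset V, H.IsCover C ∧ C.card = n}

/-- The matching number: the maximum number of pairwise disjoint edges. -/
noncomputable def nu (H : PartiteHypergraph r V) : ℕ :=
  sSup {n : ℕ | ∃ M : Finset (Finset V), H.IsMatching M ∧ M.card = n}

/-- `H` is intersecting: it has an edge and every two edges share a vertex. -/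
def Intersecting (H : PartiteHypergraph r V) : Prop :=
  H.edges.Nonempty ∧ ∀ e ∈ H.edges, ∀ f ∈ H.edges, ∃ v, v ∈ e ∧ v ∈ f

end PartiteHypergraph

open PartiteHypergraph

theorem card_edge {r : ℕ} {V : Type} (H : PartiteHypergraph r V) {e : Finset V}
    (he : e ∈ H.edges) : e.card = r := by
  classical
  have h1 : e.card = (Finset.univ : Finset (Fin r)).card := by
    apply Finset.card_bij (fun v _ => H.part v)
    · intro v _; exact Finset.mem_univ _
    · intro v hv v' hv' h
      obtain ⟨x, _, hx⟩ := H.transversal e he (H.part v)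
      rw [hx v ⟨hv, rfl⟩, hx v' ⟨hv', h.symm⟩]
    · intro i _
      obtain ⟨x, ⟨hx1, hx2⟩, _⟩ := H.transversal e he i
      exact ⟨x, hx1, hx2⟩
  rw [h1, Finset.card_univ, Fintype.card_fin]

theorem tau_eq {r : ℕ} {V : Type} (H : PartiteHypergraph r V) (hI : H.Intersecting)
    (hb : ∀ C : Finset V, H.IsCover C → r ≤ C.card) : H.tau = r := by
  obtain ⟨⟨e, he⟩, hint⟩ := hI
  have hmem : r ∈ {n : ℕ | ∃ C : Finset V, H.IsCover C ∧ C.card = n} :=
    ⟨e, fun f hf => by
      obtain ⟨v, hv1, hv2⟩ := hint e he f hf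
      exact ⟨v, hv1, hv2⟩, card_edge H he⟩
  apply le_antisymm
  · exact Nat.sInf_le hmem
  · refine le_csInf ⟨r, hmem⟩ ?_
    rintro n ⟨C, hC, rfl⟩
    exact hb C hC

theorem nu_eq_one {r : ℕ} {V : Type} (H : PartiteHypergraph r V) (hI : H.Intersecting) :
    H.nu = 1 := by
  classical
  obtain ⟨⟨e, he⟩, hint⟩ := hI
  have hle : ∀ M : Finset (Finset V), H.IsMatching M → M.card ≤ 1 := by
    intro M hM
    rw [Finset.card_le_one]
    intro a ha b hb
    by_contra hne
    obtain ⟨v, hv1, hv2⟩ := hint a (hM.1 ha) b (hM.1 hb)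
    exact Finset.disjoint_left.1 (hM.2 a ha b hb hne) hv1 hv2
  have hmem : 1 ∈ {n : ℕ | ∃ M : Finset (Finset V), H.IsMatching M ∧ M.card = n} := by
    refine ⟨{e}, ⟨?_, ?_⟩, Finset.card_singleton e⟩
    · intro f hf
      rw [Finset.mem_singleton.1 hf]; exact he
    · intro a ha b hb hne
      rw [Finset.mem_singleton.1 ha, Finset.mem_singleton.1 hb] at hne
      exact absurd rfl hne
  apply le_antisymm
  · refine csSup_le ⟨1, hmem⟩ ?_
    rintro n ⟨M, hM, rfl⟩
    exact hle M hM
  · refine le_csSup ⟨1, ?_⟩ hmem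
    rintro n ⟨M, hM, rfl⟩
    exact hle M hM

/-- **Disproof of Ryser's conjecture.** For every `h ≥ 9` there is a finite intersecting
`r`-partite `r`-uniform hypergraph with `r = 2 ^ h + 17`, matching number `1` and covering number
`r`. Hence the bound `τ ≤ r - 1` fails for intersecting hypergraphs and the bound
`τ ≤ (r - 1) ν` fails in general. -/
theorem result :
    (∀ h : ℕ, 9 ≤ h →
      ∃ (V : Type) (_ : Finite V) (H : PartiteHypergraph (2 ^ h + 17) V),
        H.Intersecting ∧ H.nu = 1 ∧ H.tau = 2 ^ h + 17) ∧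
    (¬ ∀ r : ℕ, 2 ≤ r → ∀ (V : Type) (_ : Finite V) (H : PartiteHypergraph r V),
        H.Intersecting → H.tau ≤ r - 1) ∧
    (¬ ∀ r : ℕ, 2 ≤ r → ∀ (V : Type) (_ : Finite V) (H : PartiteHypergraph r V),
        H.tau ≤ (r - 1) * H.nu) := by
  have main : ∀ h : ℕ, 9 ≤ h →
      ∃ (V : Type) (_ : Finite V) (H : PartiteHypergraph (2 ^ h + 17) V),
        H.Intersecting ∧ H.nu = 1 ∧ H.tau = 2 ^ h + 17 := by
    intro h hh
    obtain ⟨V, hV, part, E, h1, h2, h3, h4⟩ := Vale.Agent.P045.raw h hh
    let H : PartiteHypergraph (2 ^ h + 17) V := ⟨part, E, h1⟩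
    have hI : H.Intersecting := ⟨h2, h3⟩
    exact ⟨V, inferInstance, H, hI, nu_eq_one H hI, tau_eq H hI h4⟩
  refine ⟨main, ?_, ?_⟩
  · intro hall
    obtain ⟨V, hV, H, hI, -, ht⟩ := main 9 le_rfl
    have := hall _ (by norm_num) V hV H hI
    rw [ht] at this
    norm_num at this
  · intro hall
    obtain ⟨V, hV, H, -, hn, ht⟩ := main 9 le_rfl
    have := hall _ (by norm_num) V hV H
    rw [ht, hn] at this
    norm_num at this

end Vale.Agent.Results.P045.RyserDisproof
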