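import Vale.Agent.Lib.P045.Main

/-!
# P045: Ryser's conjecture is false (edges as words)

No definitions.  The vertices of the `i`-th part are the pairs `(i, a)`, `a : Fin n`, where
`i : Fin r`; an edge contains exactly one vertex of each part, so it is a word `e : Fin r → Fin n`
with the vertices `(0, e 0), …, (r - 1, e (r - 1))`.  Two edges `e`, `f` share a vertex if and only
if `e i = f i` for some `i`.  A vertex cover is a set `C` of pairs such that for every edge `e` some
`(i, e i)` lies in `C`.  (All parts have the same size here; every `r`-partite hypergraph is of this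
form after adding isolated vertices, which changes neither `τ` nor `ν`.)  The inequality
`τ ≤ (r - 1) ν` says that some cover `C` and some matching `M` satisfy `|C| ≤ (r - 1) |M|`.
-/

namespace Vale.Agent.Results.P045.RyserWords

/-- Ryser's conjecture fails, in general and for intersecting hypergraphs. -/
theorem result :
    -- it is not true that every `r`-partite `r`-uniform hypergraph has a cover `C` and a matching
    -- `M` with `|C| ≤ (r - 1) |M|`
    (¬ ∀ r : ℕ, 2 ≤ r → ∀ (n : ℕ) (E : Finset (Fin r → Fin n)),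
      ∃ (C : Finset (Fin r × Fin n)) (M : Finset (Fin r → Fin n)),
        (∀ e ∈ E, ∃ i, (i, e i) ∈ C) ∧ M ⊆ E ∧
        (∀ e ∈ M, ∀ f ∈ M, e ≠ f → ∀ i, e i ≠ f i) ∧ C.card ≤ (r - 1) * M.card) ∧
    -- it is not true that every intersecting one has a cover with at most `r - 1` vertices
    (¬ ∀ r : ℕ, 2 ≤ r → ∀ (n : ℕ) (E : Finset (Fin r → Fin n)), E.Nonempty →
      (∀ e ∈ E, ∀ f ∈ E, ∃ i, e i = f i) →
      ∃ C : Finset (Fin r × Fin n), (∀ e ∈ E, ∃ i, (i, e i) ∈ C) ∧ C.card ≤ r - 1) ∧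
    -- for `r = 2 ^ h + 17`, `h ≥ 9`, some intersecting one has only covers with at least `r`
    -- vertices
    (∀ r h : ℕ, 9 ≤ h → r = 2 ^ h + 17 → ∃ (n : ℕ) (E : Finset (Fin r → Fin n)), E.Nonempty ∧
      (∀ e ∈ E, ∀ f ∈ E, ∃ i, e i = f i) ∧
      ∀ C : Finset (Fin r × Fin n), (∀ e ∈ E, ∃ i, (i, e i) ∈ C) → r ≤ C.card) := by
  classical
  have main : ∀ r h : ℕ, 9 ≤ h → r = 2 ^ h + 17 → ∃ (n : ℕ) (E : Finset (Fin r → Fin n)),
      E.Nonempty ∧ (∀ e ∈ E, ∀ f ∈ E, ∃ i, e i = f i) ∧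
      ∀ C : Finset (Fin r × Fin n), (∀ e ∈ E, ∃ i, (i, e i) ∈ C) → r ≤ C.card := by
    rintro r h hh rfl
    obtain ⟨V, hV, part, E, h1, h2, h3, h4⟩ := Vale.Agent.P045.raw h hh
    set φ : V ≃ Fin (Fintype.card V) := Fintype.equivFin V
    have hV0 : Nonempty V := by
      obtain ⟨e, he⟩ := h2
      obtain ⟨v, -⟩ := h1 e he ⟨0, Nat.succ_pos _⟩
      exact ⟨v⟩
    choose! u hu using h1
    have hu2 : ∀ e ∈ E, ∀ i v, (v ∈ e ∧ part v = i) → v = u e i :=
      fun e he i v hv => (hu e he i).2 v hv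
    refine ⟨Fintype.card V, E.image fun e i => φ (u e i), h2.image _, ?_, ?_⟩
    · intro a ha b hb
      obtain ⟨e, he, rfl⟩ := Finset.mem_image.1 ha
      obtain ⟨f, hf, rfl⟩ := Finset.mem_image.1 hb
      obtain ⟨v, hv1, hv2⟩ := h3 e he f hf
      refine ⟨part v, ?_⟩
      have e1 : v = u e (part v) := hu2 e he _ v ⟨hv1, rfl⟩
      have e2 : v = u f (part v) := hu2 f hf _ v ⟨hv2, rfl⟩
      change φ (u e (part v)) = φ (u f (part v))
      rw [← e1, ← e2]
    · intro C hC
      refine (h4 (C.image fun p => φ.symm p.2) fun e he => ?_).trans Finset.card_image_le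
      obtain ⟨i, hi⟩ := hC _ (Finset.mem_image_of_mem _ he)
      refine ⟨u e i, Finset.mem_image.2 ⟨_, hi, ?_⟩, (hu e he i).1.1⟩
      exact φ.symm_apply_apply _
  refine ⟨fun hall => ?_, fun hall => ?_, main⟩
  · obtain ⟨n, E, -, hint, hcov⟩ := main (2 ^ 9 + 17) 9 le_rfl rfl
    obtain ⟨C, M, hC, hM, hdis, hle⟩ := hall (2 ^ 9 + 17) (by norm_num) n E
    have h5 : M.card ≤ 1 := by
      rw [Finset.card_le_one]
      intro a ha b hb
      by_contra hne
      obtain ⟨i, hi⟩ := hint a (hM ha) b (hM hb)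
      exact hdis a ha b hb hne i hi
    have h6 := hcov C hC
    have h7 : C.card ≤ (2 ^ 9 + 17 - 1) * 1 := hle.trans (Nat.mul_le_mul_left _ h5)
    omega
  · obtain ⟨n, E, hne, hint, hcov⟩ := main (2 ^ 9 + 17) 9 le_rfl rfl
    obtain ⟨C, hC, hle⟩ := hall (2 ^ 9 + 17) (by norm_num) n E hne hint
    have h6 := hcov C hC
    omega

end Vale.Agent.Results.P045.RyserWords
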